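import Vale.Agent.P284.H10.TAN.R1

/-!
# P284, theorem TAN: ball means (helper10)
-/

open Filter Set Metric MeasureTheory Topology
open scoped ContDiff

noncomputable section

namespace Vale.Agent.P284.H10.TAN

variable {n : ℕ} {w v : (Fin n → ℂ) → ℝ} {M : ℝ}

lemma rot_mp (θ : ℝ) : MeasurePreserving (fun u : Fin n → ℂ => Complex.exp (θ * Complex.I) • u)
    volume volume := by
  set a : Circle := Circle.exp θ with ha
  have hmp : MeasurePreserving (fun (u : Fin n → ℂ) (i : Fin n) => (rotation a) (u i))
      volume volume := volume_preserving_pi (fun _ => (rotation a).measurePreserving)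
  have hfun : (fun (u : Fin n → ℂ) (i : Fin n) => (rotation a) (u i))
      = fun u : Fin n → ℂ => Complex.exp (θ * Complex.I) • u := by
    ext u i
    simp [rotation_apply, ha]
  rwa [hfun] at hmp

lemma Dat.ball_mean (hv : Dat v M) {y : Fin n → ℂ} {r : ℝ} (h : ‖y‖ + r < 1) :
    volume.real (ball (0 : Fin n → ℂ) r) * v y ≤ ∫ u in ball (0 : Fin n → ℂ) r, v (y + u) := by
  have hpi : (0 : ℝ) ≤ 2 * Real.pi := by positivity
  have hg : Measurable fun p : ℝ × (Fin n → ℂ) => v (y + Complex.exp (p.1 * Complex.I) • p.2) := by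
    apply hv.meas.comp
    exact (by fun_prop : Continuous fun p : ℝ × (Fin n → ℂ) =>
      y + Complex.exp (p.1 * Complex.I) • p.2).measurable
  have hfin : IsFiniteMeasure ((volume : Measure (Fin n → ℂ)).restrict
      (ball (0 : Fin n → ℂ) r)) := ⟨by simpa using measure_ball_lt_top⟩
  have hI : Integrable (fun p : ℝ × (Fin n → ℂ) => v (y + Complex.exp (p.1 * Complex.I) • p.2))
      ((volume.restrict (Ioc 0 (2 * Real.pi))).prod
        (volume.restrict (ball (0 : Fin n → ℂ) r))) :=
    Integrable.of_bound hg.aestronglyMeasurable M (ae_of_all _ fun p => by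
      simpa using hv.abs_le _)
  have hsw := integral_integral_swap
    (f := fun (θ : ℝ) (u : Fin n → ℂ) => v (y + Complex.exp (θ * Complex.I) • u)) hI
  have hrot : ∀ θ : ℝ, ∫ u in ball (0 : Fin n → ℂ) r, v (y + Complex.exp (θ * Complex.I) • u)
      = ∫ u in ball (0 : Fin n → ℂ) r, v (y + u) := by
    intro θ
    have h1 := (rot_mp (n := n) θ).setIntegral_preimage_emb
      (Homeomorph.smulOfNeZero _ (Complex.exp_ne_zero (θ * Complex.I))).measurableEmbedding
      (fun u => v (y + u)) (ball (0 : Fin n → ℂ) r)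
    have h2 : (fun u : Fin n → ℂ => Complex.exp (θ * Complex.I) • u) ⁻¹' ball (0 : Fin n → ℂ) r
        = ball (0 : Fin n → ℂ) r := by
      ext u
      simp [norm_smul, Complex.norm_exp_ofReal_mul_I]
    rw [h2] at h1
    exact h1
  simp only [hrot] at hsw
  have h3 : ∫ u in ball (0 : Fin n → ℂ) r, v (y + u)
      = ∫ u in ball (0 : Fin n → ℂ) r, av v y u := by
    have h4 : ∫ u in ball (0 : Fin n → ℂ) r, av v y u
        = (2 * Real.pi)⁻¹ * ∫ u in ball (0 : Fin n → ℂ) r,
          ∫ θ in Ioc 0 (2 * Real.pi), v (y + Complex.exp (θ * Complex.I) • u) := by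
      rw [← integral_const_mul]
      congr 1
      ext u
      unfold av
      rw [intervalIntegral.integral_of_le hpi, smul_eq_mul]
    rw [h4, ← hsw, setIntegral_const, smul_eq_mul]
    rw [Measure.real, Real.volume_Ioc, sub_zero, ENNReal.toReal_ofReal hpi, ← mul_assoc,
      inv_mul_cancel₀ (by positivity), one_mul]
  rw [h3]
  have h5 : volume.real (ball (0 : Fin n → ℂ) r) * v y = ∫ _u in ball (0 : Fin n → ℂ) r, v y := by
    rw [setIntegral_const, smul_eq_mul]
  rw [h5]
  apply setIntegral_mono_on _ _ measurableSet_ball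
  · intro u hu
    rw [mem_ball, dist_zero_right] at hu
    apply hv.sub
    linarith
  · exact integrableOn_const measure_ball_lt_top.ne
  · have h6 : Integrable (fun u => ∫ θ in Ioc 0 (2 * Real.pi),
        v (y + Complex.exp (θ * Complex.I) • u)) (volume.restrict (ball (0 : Fin n → ℂ) r)) :=
      hI.integral_prod_right
    have h7 : (fun u => av v y u) = fun u => (2 * Real.pi)⁻¹ * ∫ θ in Ioc 0 (2 * Real.pi),
        v (y + Complex.exp (θ * Complex.I) • u) := by
      ext u
      unfold av
      rw [intervalIntegral.integral_of_le hpi, smul_eq_mul]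
    show Integrable (fun u => av v y u) _
    rw [h7]
    exact h6.const_mul _

lemma ext_dat (hb : ∀ z ∈ ball (0 : Fin n → ℂ) 1, |w z| ≤ M)
    (usc : ∀ z ∈ ball (0 : Fin n → ℂ) 1, UpperSemicontinuousAt w z)
    (sub : ∀ c b : Fin n → ℂ, ‖c‖ + ‖b‖ < 1 →
      w c ≤ Real.circleAverage (fun ζ => w (c + ζ • b)) 0 1) : Dat (ext w M) (2 * M) := by
  refine ⟨ext_meas usc hb, ext_nn hb, ext_le hb, ?_, ?_, ext_usc usc M⟩
  · intro z hz
    apply indicator_of_notMem
    simpa using hz
  · intro c b h
    have hin : ∀ θ : ℝ, c + Complex.exp (θ * Complex.I) • b ∈ ball (0 : Fin n → ℂ) 1 := by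
      intro θ
      rw [mem_ball, dist_zero_right]
      refine (norm_add_le _ _).trans_lt ?_
      rw [norm_smul, Complex.norm_exp_ofReal_mul_I, one_mul]
      exact h
    have hc : c ∈ ball (0 : Fin n → ℂ) 1 := by
      rw [mem_ball, dist_zero_right]
      have := norm_nonneg b
      linarith
    have h1 := sub c b h
    rw [Real.circleAverage_def] at h1
    have e : ∀ θ : ℝ, w (c + circleMap 0 1 θ • b)
        = ext w M (c + Complex.exp (θ * Complex.I) • b) - M := by
      intro θ
      rw [ext_eq (hin θ)]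
      simp [circleMap]
    simp only [e] at h1
    rw [intervalIntegral.integral_sub (ext_int usc hb c b) intervalIntegrable_const,
      intervalIntegral.integral_const, smul_sub, smul_smul, sub_zero,
      inv_mul_cancel₀ (by positivity), one_smul] at h1
    rw [ext_eq hc]
    unfold av
    linarith

/-- integrability and ball means -/
theorem ball_mean (n : ℕ) (w : (Fin n → ℂ) → ℝ)
    (hb : ∃ B : ℝ, ∀ z ∈ ball (0 : Fin n → ℂ) 1, |w z| ≤ B)
    (usc : ∀ z ∈ ball (0 : Fin n → ℂ) 1, UpperSemicontinuousAt w z)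
    (sub : ∀ c b : Fin n → ℂ, ‖c‖ + ‖b‖ < 1 →
      w c ≤ Real.circleAverage (fun ζ => w (c + ζ • b)) 0 1) :
    IntegrableOn w (ball (0 : Fin n → ℂ) 1) ∧
    ∀ (y : Fin n → ℂ) (r : ℝ), 0 < r → ‖y‖ + r < 1 → w y ≤ ⨍ z in ball y r, w z := by
  obtain ⟨B, hB⟩ := hb
  have hD := ext_dat hB usc sub
  have hI : IntegrableOn w (ball (0 : Fin n → ℂ) 1) := by
    have h1 : IntegrableOn (fun z => ext w B z - B) (ball (0 : Fin n → ℂ) 1) :=
      hD.integrable.integrableOn.sub (integrableOn_const measure_ball_lt_top.ne)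
    apply h1.congr_fun _ measurableSet_ball
    intro z hz
    show ext w B z - B = w z
    rw [ext_eq hz]; ring
  refine ⟨hI, ?_⟩
  intro y r hr h
  have hsub : ball y r ⊆ ball (0 : Fin n → ℂ) 1 := by
    intro z hz
    rw [mem_ball, dist_zero_right]
    rw [mem_ball, dist_eq_norm] at hz
    have := norm_sub_norm_le z y
    linarith
  have hV : 0 < volume.real (ball y r) :=
    ENNReal.toReal_pos (measure_ball_pos volume _ hr).ne' measure_ball_lt_top.ne
  have hVe : volume.real (ball (0 : Fin n → ℂ) r) = volume.real (ball y r) := by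
    rw [Measure.real, Measure.real, Measure.addHaar_ball_center volume y r]
  have h1 := hD.ball_mean (y := y) (r := r) h
  have h2 : ∫ u in ball (0 : Fin n → ℂ) r, ext w B (y + u) = ∫ z in ball y r, ext w B z := by
    have h3 := (measurePreserving_add_left volume y).setIntegral_preimage_emb
      (measurableEmbedding_addLeft y) (ext w B) (ball y r)
    have h4 : (fun u : Fin n → ℂ => y + u) ⁻¹' ball y r = ball (0 : Fin n → ℂ) r := by
      ext u
      simp [dist_eq_norm]
    rw [h4] at h3
    exact h3
  have h5 : ∫ z in ball y r, ext w B z = ∫ z in ball y r, (w z + B) :=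
    setIntegral_congr_fun measurableSet_ball fun z hz => ext_eq (hsub hz)
  have h6 : ∫ z in ball y r, (w z + B) = (∫ z in ball y r, w z) + volume.real (ball y r) * B := by
    rw [integral_add (hI.mono_set hsub) (integrableOn_const measure_ball_lt_top.ne),
      setIntegral_const, smul_eq_mul]
  rw [h2, h5, h6, hVe, ext_eq (hsub (mem_ball_self hr))] at h1
  rw [setAverage_eq, smul_eq_mul, ← div_eq_inv_mul, le_div_iff₀ hV]
  linarith

end Vale.Agent.P284.H10.TAN
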