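import Vale.Agent.P284.H10.TAN.Mol
import Vale.Agent.P284.H446.AE.En

/-!
# P284, theorem TAN, row R1: energy in dimension `n` (helper10, over helper446's one dimensional one)
-/

open Filter Set Metric MeasureTheory Topology
open scoped ContDiff

noncomputable section

namespace Vale.Agent.P284.H10.TAN

variable {n : ℕ}

/-- the coordinate line -/
def io (j : Fin n) : ℂ →L[ℝ] (Fin n → ℂ) :=
  (ContinuousLinearMap.single ℂ (fun _ : Fin n => ℂ) j).restrictScalars ℝ

lemma io_apply (j : Fin n) (ζ : ℂ) : io j ζ = Pi.single j ζ := rfl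

lemma io_norm (j : Fin n) (ζ : ℂ) : ‖io j ζ‖ = ‖ζ‖ := by
  rw [io_apply, Pi.norm_single]

lemma io_smul (j : Fin n) (a ζ : ℂ) : a • io j ζ = io j (a * ζ) := by
  rw [io_apply, io_apply, ← Pi.single_smul, smul_eq_mul]

lemma norm_le_sum (L : (Fin n → ℂ) →L[ℝ] ℝ) : ‖L‖ ≤ ∑ j, ‖L.comp (io j)‖ := by
  apply ContinuousLinearMap.opNorm_le_bound _ (Finset.sum_nonneg fun _ _ => norm_nonneg _)
  intro x
  have h1 : x = ∑ j, io j (x j) := by
    simp only [io_apply]
    exact (Finset.univ_sum_single x).symm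
  calc ‖L x‖ = ‖∑ j, (L.comp (io j)) (x j)‖ := by
        conv_lhs => rw [h1, map_sum]
        rfl
    _ ≤ ∑ j, ‖(L.comp (io j)) (x j)‖ := norm_sum_le _ _
    _ ≤ ∑ j, ‖L.comp (io j)‖ * ‖x‖ := by
        apply Finset.sum_le_sum
        intro j _
        exact ((L.comp (io j)).le_opNorm _).trans
          (mul_le_mul_of_nonneg_left (norm_le_pi_norm x j) (norm_nonneg _))
    _ = (∑ j, ‖L.comp (io j)‖) * ‖x‖ := by rw [Finset.sum_mul]

lemma norm_sq_le (L : (Fin n → ℂ) →L[ℝ] ℝ) : ‖L‖ ^ 2 ≤ n * ∑ j, ‖L.comp (io j)‖ ^ 2 := by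
  have h1 : ‖L‖ ^ 2 ≤ (∑ j, ‖L.comp (io j)‖) ^ 2 := by
    gcongr
    exact norm_le_sum L
  have h2 := sq_sum_le_card_mul_sum_sq (s := Finset.univ) (f := fun j : Fin n => ‖L.comp (io j)‖)
  simpa using h1.trans h2

/-- averaging over translations in the direction of the coordinate line -/
lemma transl {F : (Fin n → ℂ) → ℝ} (hF : Continuous F) (hF0 : ∀ z, 0 ≤ F z) (j : Fin n)
    {r δ C : ℝ} (hr : 0 < r) (hδ : 0 < δ)
    (h : ∀ z ∈ ball (0 : Fin n → ℂ) (r + δ), ∫ ζ in ball (0 : ℂ) δ, F (z + io j ζ) ≤ C) :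
    (volume (ball (0 : ℂ) δ)).toReal * ∫ z in ball (0 : Fin n → ℂ) r, F z
      ≤ (volume (ball (0 : Fin n → ℂ) (r + δ))).toReal * C := by
  have hI : Integrable (fun p : ℂ × (Fin n → ℂ) => F (p.2 + io j p.1))
      ((volume.restrict (ball (0 : ℂ) δ)).prod
        (volume.restrict (ball (0 : Fin n → ℂ) (r + δ)))) := by
    rw [Measure.prod_restrict]
    have hc : Continuous fun p : ℂ × (Fin n → ℂ) => F (p.2 + io j p.1) :=
      hF.comp (continuous_snd.add ((io j).continuous.comp continuous_fst))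
    apply (hc.continuousOn.integrableOn_compact
      ((isCompact_closedBall (0 : ℂ) δ).prod (isCompact_closedBall (0 : Fin n → ℂ) (r + δ)))).mono_set
    exact Set.prod_mono ball_subset_closedBall ball_subset_closedBall
  have h1 : ∀ ζ ∈ ball (0 : ℂ) δ, ∫ z in ball (0 : Fin n → ℂ) r, F z
      ≤ ∫ z in ball (0 : Fin n → ℂ) (r + δ), F (z + io j ζ) := by
    intro ζ hζ
    have hz : ‖io j ζ‖ < δ := by rw [io_norm]; simpa using hζ
    have e : ∫ z in ball (0 : Fin n → ℂ) r, F z
        = ∫ z in (fun z => z + io j ζ) ⁻¹' ball (0 : Fin n → ℂ) r, F (z + io j ζ) :=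
      ((measurePreserving_add_right volume (io j ζ)).setIntegral_preimage_emb
        (measurableEmbedding_addRight _) F _).symm
    rw [e]
    apply setIntegral_mono_set
    · have hc : Continuous fun z : Fin n → ℂ => F (z + io j ζ) :=
        hF.comp (continuous_id.add continuous_const)
      exact (hc.continuousOn.integrableOn_compact
        (isCompact_closedBall (0 : Fin n → ℂ) (r + δ))).mono_set ball_subset_closedBall
    · exact ae_of_all _ fun z => hF0 _
    · apply HasSubset.Subset.eventuallyLE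
      intro z hz'
      have hz'' : z + io j ζ ∈ ball (0 : Fin n → ℂ) r := hz'
      rw [mem_ball, dist_zero_right] at hz'' ⊢
      have := norm_sub_le (z + io j ζ) (io j ζ)
      rw [add_sub_cancel_right] at this
      linarith
  have h2 : (volume (ball (0 : ℂ) δ)).toReal * ∫ z in ball (0 : Fin n → ℂ) r, F z
      = ∫ ζ in ball (0 : ℂ) δ, ∫ z in ball (0 : Fin n → ℂ) r, F z := by
    rw [setIntegral_const, smul_eq_mul, Measure.real]
  have h3 : ∫ ζ in ball (0 : ℂ) δ, ∫ z in ball (0 : Fin n → ℂ) r, F z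
      ≤ ∫ ζ in ball (0 : ℂ) δ, ∫ z in ball (0 : Fin n → ℂ) (r + δ), F (z + io j ζ) := by
    apply setIntegral_mono_on _ _ measurableSet_ball h1
    · exact integrableOn_const (measure_ball_lt_top.ne)
    · exact hI.integral_prod_left
  have h4 : ∫ ζ in ball (0 : ℂ) δ, ∫ z in ball (0 : Fin n → ℂ) (r + δ), F (z + io j ζ)
      = ∫ z in ball (0 : Fin n → ℂ) (r + δ), ∫ ζ in ball (0 : ℂ) δ, F (z + io j ζ) :=
    integral_integral_swap (f := fun (ζ : ℂ) (z : Fin n → ℂ) => F (z + io j ζ)) hI
  have h5 : ∫ z in ball (0 : Fin n → ℂ) (r + δ), ∫ ζ in ball (0 : ℂ) δ, F (z + io j ζ)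
      ≤ ∫ z in ball (0 : Fin n → ℂ) (r + δ), C := by
    apply setIntegral_mono_on _ _ measurableSet_ball h
    · exact hI.integral_prod_right
    · exact integrableOn_const (measure_ball_lt_top.ne)
  rw [setIntegral_const, smul_eq_mul, Measure.real] at h5
  rw [h2]
  linarith [h3, h4, h5]

/-- energy bound -/
theorem energy {r : ℝ} (hr : 0 < r) (hr1 : r < 1) : ∃ K, 0 ≤ K ∧ ∀ (f : (Fin n → ℂ) → ℝ) (M : ℝ),
    ContDiff ℝ 1 f → (∃ C, ∀ z, C < ‖z‖ → f z = 0) → (∀ z, 0 ≤ f z ∧ f z ≤ M) →
    (∀ z b, ‖z‖ + ‖b‖ < (1 + r) / 2 → f z ≤ av f z b) →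
    ∫ z in ball (0 : Fin n → ℂ) r, ‖fderiv ℝ f z‖ ^ 2 ≤ K * M ^ 2 := by
  set δ : ℝ := (1 - r) / 8 with hδ
  have hδ0 : 0 < δ := by rw [hδ]; linarith
  obtain ⟨K, hK0, hK⟩ := Vale.Agent.P284.H446.AE.energy hδ0 (by linarith : δ < 2 * δ)
  have hvol : 0 < (volume (ball (0 : ℂ) δ)).toReal :=
    ENNReal.toReal_pos (measure_ball_pos volume _ hδ0).ne' measure_ball_lt_top.ne
  refine ⟨n * ∑ _j : Fin n, ((volume (ball (0 : Fin n → ℂ) (r + δ))).toReal * K
    / (volume (ball (0 : ℂ) δ)).toReal), by positivity, ?_⟩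
  intro f M hf hsupp hfM hsub
  have hfc : Continuous fun z => fderiv ℝ f z := hf.continuous_fderiv (by simp)
  have key : ∀ j : Fin n, ∫ z in ball (0 : Fin n → ℂ) r, ‖(fderiv ℝ f z).comp (io j)‖ ^ 2
      ≤ (volume (ball (0 : Fin n → ℂ) (r + δ))).toReal * K
        / (volume (ball (0 : ℂ) δ)).toReal * M ^ 2 := by
    intro j
    have hFc : Continuous fun z => ‖(fderiv ℝ f z).comp (io j)‖ ^ 2 :=
      ((hfc.clm_comp continuous_const).norm).pow 2
    have h1 := transl (F := fun z => ‖(fderiv ℝ f z).comp (io j)‖ ^ 2) hFc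
      (fun z => by positivity) j (C := K * M ^ 2) hr hδ0 (by
        intro z hz
        rw [mem_ball, dist_zero_right] at hz
        have hg : ContDiff ℝ 1 fun ζ : ℂ => f (z + io j ζ) :=
          hf.comp (contDiff_const.add (io j).contDiff)
        have hder : ∀ ζ : ℂ, fderiv ℝ (fun ζ : ℂ => f (z + io j ζ)) ζ
            = (fderiv ℝ f (z + io j ζ)).comp (io j) := by
          intro ζ
          have hd : HasFDerivAt (fun ζ : ℂ => z + io j ζ) (io j) ζ :=
            (io j).hasFDerivAt.const_add z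
          exact (((hf.differentiable (by simp)) (z + io j ζ)).hasFDerivAt.comp ζ hd).fderiv
        have h2 := hK (fun ζ : ℂ => f (z + io j ζ)) M hg (by
            obtain ⟨C, hC⟩ := hsupp
            apply HasCompactSupport.intro (isCompact_closedBall (0 : ℂ) (C + ‖z‖))
            intro ζ hζ
            rw [mem_closedBall, dist_zero_right, not_le] at hζ
            apply hC
            have h3 := norm_sub_le (z + io j ζ) z
            rw [add_sub_cancel_left, io_norm] at h3
            linarith) (fun ζ => hfM _) ⟨δ, hδ0, by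
            intro ζ hζ ρ hρ
            rw [mem_ball, dist_zero_right] at hζ
            have h3 := hsub (z + io j ζ) (io j ρ) (by
              rw [io_norm, Complex.norm_real, Real.norm_eq_abs, abs_of_pos hρ.1]
              have h4 := norm_add_le z (io j ζ)
              rw [io_norm] at h4
              have := hρ.2
              rw [hδ] at *
              linarith)
            refine h3.trans (le_of_eq ?_)
            rw [Real.circleAverage_def]
            unfold av
            congr 2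
            ext θ
            rw [io_smul, add_assoc, ← map_add]
            congr 3
            simp [circleMap, mul_comm]⟩
        simp only [hder] at h2
        exact h2)
    rw [div_mul_eq_mul_div, le_div_iff₀ hvol]
    calc _ = (volume (ball (0 : ℂ) δ)).toReal
          * ∫ z in ball (0 : Fin n → ℂ) r, ‖(fderiv ℝ f z).comp (io j)‖ ^ 2 := by ring
      _ ≤ _ := h1
      _ = _ := by ring
  have hint : ∀ j : Fin n, IntegrableOn (fun z => ‖(fderiv ℝ f z).comp (io j)‖ ^ 2)
      (ball (0 : Fin n → ℂ) r) := fun j =>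
    ((((hfc.clm_comp continuous_const).norm).pow 2).continuousOn.integrableOn_compact
      (isCompact_closedBall (0 : Fin n → ℂ) r)).mono_set ball_subset_closedBall
  calc ∫ z in ball (0 : Fin n → ℂ) r, ‖fderiv ℝ f z‖ ^ 2
      ≤ ∫ z in ball (0 : Fin n → ℂ) r, n * ∑ j, ‖(fderiv ℝ f z).comp (io j)‖ ^ 2 := by
        apply integral_mono
        · exact ((hfc.norm.pow 2).continuousOn.integrableOn_compact
            (isCompact_closedBall (0 : Fin n → ℂ) r)).mono_set ball_subset_closedBall
        · exact (integrable_finset_sum _ fun j _ => hint j).const_mul _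
        · intro z
          exact norm_sq_le _
    _ = n * ∑ j, ∫ z in ball (0 : Fin n → ℂ) r, ‖(fderiv ℝ f z).comp (io j)‖ ^ 2 := by
        rw [integral_const_mul, integral_finset_sum _ fun j _ => hint j]
    _ ≤ n * ∑ _j : Fin n, ((volume (ball (0 : Fin n → ℂ) (r + δ))).toReal * K
        / (volume (ball (0 : ℂ) δ)).toReal * M ^ 2) := by
        apply mul_le_mul_of_nonneg_left _ (Nat.cast_nonneg n)
        exact Finset.sum_le_sum fun j _ => key j
    _ = _ := by rw [← Finset.sum_mul]; ring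

end Vale.Agent.P284.H10.TAN
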