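import Vale.Agent.P284.H10.TAN.Ball
import Vale.Agent.P284.H730.TAN.R3
import Vale.Agent.P284.H35.TAN.Core
import Vale.Agent.P284.H35.TAN.Mean
import Vale.Agent.P284.H5.TAN.R6
import Vale.Agent.P284.H287.TAN.R4

/-!
# P284, theorem TAN: local statement (assembly, helper10)
-/

open Filter Set Metric MeasureTheory Topology
open scoped ContDiff

noncomputable section

namespace Vale.Agent.P284.H10.TAN

/-- R2 of helper409 (dimension `n`) -/
def R2 (n : ℕ) : Prop := ∀ (u : (Fin n → ℂ) → ℝ) (S : Set (Fin n → ℂ))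
    (_ : Bornology.IsBounded S) (f : ℕ → (Fin n → ℂ) → ℝ) (K : ℝ)
    (_ : ∀ k, ContDiff ℝ 1 (f k)) (_ : ∀ z ∈ S, Tendsto (fun k => f k z) atTop (𝓝 (u z)))
    (_ : ∀ k, ∫ z in S, ‖fderiv ℝ (f k) z‖ ^ 2 ≤ K),
    ∃ (g : ℕ → (Fin n → ℂ) → ℝ) (G : (Fin n → ℂ) → (Fin n → ℂ) →L[ℝ] ℝ),
      (∀ k, ContDiff ℝ 1 (g k)) ∧ (∀ z ∈ S, Tendsto (fun k => g k z) atTop (𝓝 (u z))) ∧
      StronglyMeasurable G ∧ IntegrableOn G S ∧
      Tendsto (fun k => ∫⁻ z in S, ‖fderiv ℝ (g k) z - G z‖ₑ) atTop (𝓝 0)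

/-- null sets on almost every segment from `x` -/
lemma seg {n : ℕ} {N : Set (Fin n → ℂ)} (hN : MeasurableSet N) (h0 : volume N = 0)
    (x : Fin n → ℂ) :
    ∀ᵐ h : Fin n → ℂ, ∀ᵐ s ∂((volume : Measure ℝ).restrict (Ioc 0 1)), x + s • h ∉ N := by
  have hms : MeasurableSet {q : (Fin n → ℂ) × ℝ | x + q.2 • q.1 ∉ N} :=
    (by fun_prop : Continuous fun q : (Fin n → ℂ) × ℝ => x + q.2 • q.1).measurable hN.compl
  have h1 : ∀ᵐ s ∂((volume : Measure ℝ).restrict (Ioc 0 1)), ∀ᵐ h : Fin n → ℂ, x + s • h ∉ N := by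
    filter_upwards [ae_restrict_mem measurableSet_Ioc] with s hs
    have hs0 : s ≠ 0 := hs.1.ne'
    have h3 : {h : Fin n → ℂ | ¬ x + s • h ∉ N} = (fun h => s • h) ⁻¹' ((fun z => x + z) ⁻¹' N) := by
      ext h
      simp
    rw [ae_iff, h3, Measure.addHaar_preimage_smul volume hs0, measure_preimage_add, h0, mul_zero]
  exact (Measure.ae_ae_comm (μ := (volume : Measure (Fin n → ℂ)))
    (ν := (volume : Measure ℝ).restrict (Ioc 0 1)) (p := fun h s => x + s • h ∉ N) hms).2 h1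

theorem tanLoc_of (hR2 : ∀ n, R2 n) (n : ℕ) (v : (Fin n → ℂ) → ℝ) (hB : ∃ B : ℝ, ∀ z, |v z| ≤ B)
    (husc : ∀ z ∈ ball (0 : Fin n → ℂ) 1, UpperSemicontinuousAt v z)
    (hsub : ∀ (c b : Fin n → ℂ) (ρ : ℝ), 0 < ρ →
      (∀ ζ ∈ closedBall (0 : ℂ) ρ, c + ζ • b ∈ ball (0 : Fin n → ℂ) 1) →
      v c ≤ Real.circleAverage (fun ζ : ℂ => v (c + ζ • b)) 0 ρ)
    (hae : ∀ᵐ x : Fin n → ℂ, x ∈ ball (0 : Fin n → ℂ) 1 → ∃ S : Set (Fin n → ℂ),
      Submodule.span ℂ S = ⊤ ∧ ∀ a ∈ S, ∃ f : ℂ → Fin n → ℂ, HasDerivAt f a 0 ∧ f 0 = x ∧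
        ∀ᶠ t in 𝓝 (0 : ℂ), v (f t) = v x) :
    ∃ r > 0, ∀ z ∈ ball (0 : Fin n → ℂ) r, v z = v 0 := by
  have hb' : ∃ B : ℝ, ∀ z ∈ ball (0 : Fin n → ℂ) 1, |v z| ≤ B :=
    hB.imp fun B h z _ => h z
  have hsub' : ∀ c b : Fin n → ℂ, ‖c‖ + ‖b‖ < 1 →
      v c ≤ Real.circleAverage (fun ζ => v (c + ζ • b)) 0 1 := by
    intro c b h
    apply hsub c b 1 one_pos
    intro ζ hζ
    rw [mem_closedBall, dist_zero_right] at hζ
    rw [mem_ball, dist_zero_right]
    refine (norm_add_le _ _).trans_lt (lt_of_le_of_lt ?_ h)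
    rw [norm_smul]
    have := mul_le_mul_of_nonneg_right hζ (norm_nonneg b)
    linarith
  set S : Set (Fin n → ℂ) := ball 0 (1 / 2) with hS
  have hSsub : S ⊆ ball (0 : Fin n → ℂ) 1 := ball_subset_ball (by norm_num)
  obtain ⟨f, K, hf, hlim, hK⟩ := r1 n v hb' husc hsub' (1 / 2) (by norm_num) (by norm_num)
  obtain ⟨g, G, hg, hglim, hGm, hGi, hL⟩ := hR2 n v S isBounded_ball f K hf hlim hK
  have h3 := Vale.Agent.P284.H730.TAN.r3 (μ := volume) (convex_ball (0 : Fin n → ℂ) (1 / 2))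
    measurableSet_ball hg hglim hGm hL
  have h4 := Vale.Agent.P284.H287.TAN.r4 (volume : Measure (Fin n → ℂ)) (S := S) isOpen_ball
    (u := v) hGm hGi (by
      filter_upwards [h3] with x hx hxS
      filter_upwards [hx] with h hh hxh
      exact (hh hxS hxh).2)
  -- `G = 0` a.e.
  have hG0 : ∀ᵐ x : Fin n → ℂ, x ∈ S → G x = 0 := by
    filter_upwards [h4, hae] with x hx1 hx2 hxS
    obtain ⟨T, hT1, hT2⟩ := hx2 (hSsub hxS)
    have hn : ‖x‖ < 1 / 2 := by simpa [hS] using hxS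
    have hball : ball x (1 / 2) ⊆ ball (0 : Fin n → ℂ) 1 := by
      intro z hz
      rw [mem_ball, dist_zero_right]
      rw [mem_ball, dist_eq_norm] at hz
      have := norm_sub_norm_le z x
      linarith
    exact Vale.Agent.P284.H35.TAN.core v x (G x) (δ := 1 / 2) (by norm_num)
      (fun h r hr hhr => Vale.Agent.P284.H35.TAN.hsub_core isOpen_ball hB husc hsub hball h r hr hhr)
      (Vale.Agent.P284.H35.TAN.integrable_ball isOpen_ball hB husc hball) (hx1 hxS) T hT1 hT2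
  set N : Set (Fin n → ℂ) := S ∩ {y | G y ≠ 0} with hN
  have hNm : MeasurableSet N := by
    apply measurableSet_ball.inter
    have h5 : StronglyMeasurable fun y => ‖G y‖ := hGm.norm
    have h6 : {y | G y ≠ 0} = {y | 0 < ‖G y‖} := by ext y; simp
    rw [h6]
    exact measurableSet_lt measurable_const h5.measurable
  have hN0 : volume N = 0 := by
    have h5 : {y | ¬ (y ∈ S → G y = 0)} = N := by
      ext y; simp [hN]
    rw [ae_iff, h5] at hG0
    exact hG0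
  have hid : ∀ᵐ x : Fin n → ℂ, x ∈ ball (0 : Fin n → ℂ) (1 / 2) →
      ∀ᵐ h : Fin n → ℂ, x + h ∈ ball (0 : Fin n → ℂ) (1 / 2) → v (x + h) = v x := by
    filter_upwards [h3] with x hx hxS
    filter_upwards [hx, seg hNm hN0 x] with h hh hh2 hxh
    have h7 := (hh hxS hxh).2
    have h8 : ∫ s in (0 : ℝ)..1, G (x + s • h) h = 0 := by
      rw [intervalIntegral.integral_of_le zero_le_one]
      apply integral_eq_zero_of_ae
      filter_upwards [hh2, ae_restrict_mem measurableSet_Ioc] with s hs hs2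
      have h9 : x + s • h ∈ S := by
        have h10 := (convex_ball (0 : Fin n → ℂ) (1 / 2)) hxS hxh (by linarith [hs2.2] : 0 ≤ 1 - s)
          hs2.1.le (by ring)
        have h11 : (1 - s) • x + s • (x + h) = x + s • h := by
          rw [smul_add, sub_smul, one_smul]; abel
        rwa [h11] at h10
      have h12 : G (x + s • h) = 0 := by
        by_contra hc
        exact hs ⟨h9, hc⟩
      rw [h12]; rfl
    rw [h8] at h7
    linarith
  obtain ⟨c, hc⟩ := Vale.Agent.P284.H5.TAN.r6 volume v 0 (1 / 2) hid (fun x hx => husc x (hSsub hx))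
    (fun y hy => ⟨1 / 2, by norm_num, fun r hr => by
      apply (ball_mean n v hb' husc hsub').2 y r hr.1
      have : ‖y‖ < 1 / 2 := by simpa using hy
      have := hr.2
      linarith⟩)
  refine ⟨1 / 2, by norm_num, fun z hz => ?_⟩
  rw [hc z hz, hc 0 (mem_ball_self (by norm_num))]

end Vale.Agent.P284.H10.TAN
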