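import Mathlib

/-!
# P284, theorem TAN, row R1: mollification in dimension `n` (helper10)
-/

open Filter Set Metric MeasureTheory Topology
open scoped ContDiff Convolution

noncomputable section

namespace Vale.Agent.P284.H10.TAN

variable {n : ℕ}

/-- kernel, not normalised -/
def k0 (ε : ℝ) (z : Fin n → ℂ) : ℝ := ∏ j, Real.smoothTransition (1 - ‖z j‖ ^ 2 / ε ^ 2)

lemma k0_contDiff (ε : ℝ) : ContDiff ℝ ∞ (k0 ε : (Fin n → ℂ) → ℝ) := by
  unfold k0
  apply contDiff_prod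
  intro j _
  exact Real.smoothTransition.contDiff.comp
    (contDiff_const.sub (((contDiff_norm_sq ℝ).comp (contDiff_apply ℝ ℂ j)).div_const _))

lemma k0_nonneg (ε : ℝ) (z : Fin n → ℂ) : 0 ≤ k0 ε z :=
  Finset.prod_nonneg fun _ _ => Real.smoothTransition.nonneg _

lemma k0_zero_of_le {ε : ℝ} (hε : 0 < ε) {z : Fin n → ℂ} (h : ε ≤ ‖z‖) : k0 ε z = 0 := by
  by_contra hc
  have h1 : ∀ j, ‖z j‖ < ε := by
    intro j
    by_contra hj
    rw [not_lt] at hj
    apply hc
    apply Finset.prod_eq_zero (Finset.mem_univ j)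
    apply Real.smoothTransition.zero_of_nonpos
    have : 1 ≤ ‖z j‖ ^ 2 / ε ^ 2 := by
      rw [one_le_div (by positivity)]
      gcongr
    linarith
  have h2 : ‖z‖ < ε := (pi_norm_lt_iff hε).2 h1
  linarith

def mass (n : ℕ) (ε : ℝ) : ℝ := ∫ z : Fin n → ℂ, k0 ε z

lemma k0_supp {ε : ℝ} (hε : 0 < ε) : HasCompactSupport (k0 ε : (Fin n → ℂ) → ℝ) := by
  apply HasCompactSupport.intro (isCompact_closedBall (0 : Fin n → ℂ) ε)
  intro z hz
  apply k0_zero_of_le hε
  rw [mem_closedBall, dist_zero_right, not_le] at hz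
  exact hz.le

lemma mass_pos {ε : ℝ} (hε : 0 < ε) : 0 < mass n ε := by
  apply Continuous.integral_pos_of_hasCompactSupport_nonneg_nonzero (k0_contDiff ε).continuous
    (k0_supp hε) (k0_nonneg ε) (x := 0)
  simp [k0]

/-- normalised kernel -/
def ker (ε : ℝ) (z : Fin n → ℂ) : ℝ := k0 ε z / mass n ε

lemma ker_contDiff (ε : ℝ) : ContDiff ℝ ∞ (ker ε : (Fin n → ℂ) → ℝ) := (k0_contDiff ε).div_const _

lemma ker_nonneg {ε : ℝ} (hε : 0 < ε) (z : Fin n → ℂ) : 0 ≤ ker ε z :=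
  div_nonneg (k0_nonneg ε z) (mass_pos hε).le

lemma ker_zero_of_le {ε : ℝ} (hε : 0 < ε) {z : Fin n → ℂ} (h : ε ≤ ‖z‖) : ker ε z = 0 := by
  simp [ker, k0_zero_of_le hε h]

lemma ker_supp {ε : ℝ} (hε : 0 < ε) : HasCompactSupport (ker ε : (Fin n → ℂ) → ℝ) := by
  apply HasCompactSupport.intro (isCompact_closedBall (0 : Fin n → ℂ) ε)
  intro z hz
  apply ker_zero_of_le hε
  rw [mem_closedBall, dist_zero_right, not_le] at hz
  exact hz.le

lemma ker_integrable {ε : ℝ} (hε : 0 < ε) : Integrable (ker ε : (Fin n → ℂ) → ℝ) :=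
  (ker_contDiff ε).continuous.integrable_of_hasCompactSupport (ker_supp hε)

lemma ker_int {ε : ℝ} (hε : 0 < ε) : ∫ z : Fin n → ℂ, ker ε z = 1 := by
  have : ∫ z : Fin n → ℂ, ker ε z = (∫ z : Fin n → ℂ, k0 ε z) / mass n ε := integral_div _ _
  rw [this]
  exact div_self (mass_pos hε).ne'

lemma ker_rot (ε : ℝ) {a : ℂ} (ha : ‖a‖ = 1) (u : Fin n → ℂ) : ker ε (a • u) = ker ε u := by
  simp [ker, k0, ha]

/-- the mollification -/
def mol (v : (Fin n → ℂ) → ℝ) (ε : ℝ) (z : Fin n → ℂ) : ℝ := ∫ u : Fin n → ℂ, ker ε u * v (z - u)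

/-- mean on a circle of a complex line -/
def av (g : (Fin n → ℂ) → ℝ) (c b : Fin n → ℂ) : ℝ :=
  (2 * Real.pi)⁻¹ • ∫ θ in (0)..(2 * Real.pi), g (c + Complex.exp (θ * Complex.I) • b)

/-- the data -/
structure Dat (v : (Fin n → ℂ) → ℝ) (M : ℝ) : Prop where
  meas : Measurable v
  nn : ∀ z, 0 ≤ v z
  le : ∀ z, v z ≤ M
  supp : ∀ z, 1 ≤ ‖z‖ → v z = 0
  sub : ∀ c b, ‖c‖ + ‖b‖ < 1 → v c ≤ av v c b
  usc : ∀ z ∈ ball (0 : Fin n → ℂ) 1, UpperSemicontinuousAt v z

variable {v : (Fin n → ℂ) → ℝ} {M : ℝ}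

lemma int_mul {ε : ℝ} (hε : 0 < ε) {g : (Fin n → ℂ) → ℝ} (hg : Measurable g) {M : ℝ}
    (h : ∀ u, |g u| ≤ M) : Integrable (fun u => ker ε u * g u) :=
  (ker_integrable hε).mul_bdd (c := M) hg.aestronglyMeasurable
    (ae_of_all _ fun u => by simpa using h u)

lemma Dat.abs_le (hv : Dat v M) (z : Fin n → ℂ) : |v z| ≤ M := by
  rw [abs_of_nonneg (hv.nn z)]; exact hv.le z

lemma Dat.int_conv (hv : Dat v M) {ε : ℝ} (hε : 0 < ε) (z : Fin n → ℂ) :
    Integrable (fun u => ker ε u * v (z - u)) :=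
  int_mul hε (hv.meas.comp (measurable_const.sub measurable_id)) (fun u => hv.abs_le _)

lemma Dat.mol_nonneg (hv : Dat v M) {ε : ℝ} (hε : 0 < ε) (z : Fin n → ℂ) : 0 ≤ mol v ε z :=
  integral_nonneg fun u => mul_nonneg (ker_nonneg hε u) (hv.nn _)

lemma Dat.mol_le_of (hv : Dat v M) {ε : ℝ} (hε : 0 < ε) (z : Fin n → ℂ) {a : ℝ}
    (h : ∀ u, ‖u‖ < ε → v (z - u) ≤ a) : mol v ε z ≤ a := by
  have h1 : mol v ε z ≤ ∫ u : Fin n → ℂ, ker ε u * a := by
    apply integral_mono (hv.int_conv hε z) ((ker_integrable hε).mul_const a)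
    intro u
    rcases lt_or_ge ‖u‖ ε with hu | hu
    · exact mul_le_mul_of_nonneg_left (h u hu) (ker_nonneg hε u)
    · simp [ker_zero_of_le hε hu]
  rwa [integral_mul_const, ker_int hε, one_mul] at h1

lemma Dat.mol_le (hv : Dat v M) {ε : ℝ} (hε : 0 < ε) (z : Fin n → ℂ) : mol v ε z ≤ M :=
  hv.mol_le_of hε z fun _ _ => hv.le _

lemma Dat.integrable (hv : Dat v M) : Integrable v := by
  have h1 : IntegrableOn v (ball (0 : Fin n → ℂ) 1) := by
    apply Measure.integrableOn_of_bounded (M := M) (measure_ball_lt_top.ne)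
      hv.meas.aestronglyMeasurable
    exact ae_of_all _ fun _ => by simpa using hv.abs_le _
  rw [← integrableOn_iff_integrable_of_support_subset (s := ball (0 : Fin n → ℂ) 1)]
  · exact h1
  · intro z hz
    rw [Function.mem_support] at hz
    by_contra hc
    apply hz
    apply hv.supp
    simpa using hc

lemma Dat.contDiff (hv : Dat v M) {ε : ℝ} (hε : 0 < ε) : ContDiff ℝ ∞ (mol v ε) := by
  have := HasCompactSupport.contDiff_convolution_left (n := ⊤) (ContinuousLinearMap.mul ℝ ℝ)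
    (μ := (volume : Measure (Fin n → ℂ))) (ker_supp hε) (ker_contDiff ε)
    (hv.integrable.locallyIntegrable)
  exact this

lemma Dat.mol_zero (hv : Dat v M) {ε : ℝ} (hε : 0 < ε) {z : Fin n → ℂ} (hz : 1 + ε < ‖z‖) :
    mol v ε z = 0 := by
  unfold mol
  rw [← integral_zero (Fin n → ℂ) ℝ (μ := volume)]
  congr 1
  ext u
  rcases lt_or_ge ‖u‖ ε with hu | hu
  · have : 1 ≤ ‖z - u‖ := by
      have := norm_sub_norm_le z u
      linarith
    simp [hv.supp _ this]
  · simp [ker_zero_of_le hε hu]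

/-- Fubini on the circle -/
lemma fub {ε : ℝ} (hε : 0 < ε) {g : ℝ → (Fin n → ℂ) → ℝ}
    (hg : Measurable fun p : ℝ × (Fin n → ℂ) => g p.1 p.2)
    {M : ℝ} (h : ∀ θ u, |g θ u| ≤ M) :
    Integrable (fun u => ker ε u * ((2 * Real.pi)⁻¹ • ∫ θ in (0)..(2 * Real.pi), g θ u)) ∧
    (2 * Real.pi)⁻¹ • ∫ θ in (0)..(2 * Real.pi), ∫ u : Fin n → ℂ, ker ε u * g θ u
      = ∫ u : Fin n → ℂ, ker ε u * ((2 * Real.pi)⁻¹ • ∫ θ in (0)..(2 * Real.pi), g θ u) := by
  have hpi : (0 : ℝ) ≤ 2 * Real.pi := by positivity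
  have hI : Integrable (fun p : ℝ × (Fin n → ℂ) => ker ε p.2 * g p.1 p.2)
      ((volume.restrict (Ioc 0 (2 * Real.pi))).prod volume) := by
    apply Integrable.mul_bdd (c := M)
    · exact (ker_integrable hε).comp_snd _
    · exact hg.aestronglyMeasurable
    · exact ae_of_all _ fun p => by simpa using h p.1 p.2
  have hsw := integral_integral_swap (f := fun (θ : ℝ) (u : Fin n → ℂ) => ker ε u * g θ u) hI
  have e : ∀ u, ∫ θ in Ioc 0 (2 * Real.pi), ker ε u * g θ u
      = ker ε u * ∫ θ in Ioc 0 (2 * Real.pi), g θ u := fun u => integral_const_mul _ _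
  have hI2 : Integrable (fun u => ∫ θ in Ioc 0 (2 * Real.pi), ker ε u * g θ u) :=
    hI.integral_prod_right
  constructor
  · have : (fun u => ker ε u * ((2 * Real.pi)⁻¹ • ∫ θ in (0)..(2 * Real.pi), g θ u))
        = fun u => (2 * Real.pi)⁻¹ • ∫ θ in Ioc 0 (2 * Real.pi), ker ε u * g θ u := by
      ext u
      rw [e, intervalIntegral.integral_of_le hpi, smul_eq_mul, smul_eq_mul]
      ring
    rw [this]
    exact hI2.smul (2 * Real.pi)⁻¹
  · rw [intervalIntegral.integral_of_le hpi, hsw, ← integral_smul]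
    congr 1
    ext u
    rw [e, intervalIntegral.integral_of_le hpi, smul_eq_mul, smul_eq_mul]
    ring

lemma Dat.mol_sub (hv : Dat v M) {ε : ℝ} (hε : 0 < ε) {z b : Fin n → ℂ}
    (h : ‖z‖ + ε + ‖b‖ < 1) : mol v ε z ≤ av (mol v ε) z b := by
  have hg : Measurable fun p : ℝ × (Fin n → ℂ) =>
      v ((z + Complex.exp (p.1 * Complex.I) • b) - p.2) := by
    apply hv.meas.comp
    exact (by fun_prop : Continuous fun p : ℝ × (Fin n → ℂ) =>
      (z + Complex.exp (p.1 * Complex.I) • b) - p.2).measurable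
  obtain ⟨h1, h2⟩ := fub hε
    (g := fun θ u => v ((z + Complex.exp (θ * Complex.I) • b) - u)) hg (fun θ u => hv.abs_le _)
  have e : ∀ u, (2 * Real.pi)⁻¹ • ∫ θ in (0)..(2 * Real.pi),
      v ((z + Complex.exp (θ * Complex.I) • b) - u) = av v (z - u) b := by
    intro u
    unfold av
    congr 2
    ext θ
    congr 1
    abel
  have h3 : av (mol v ε) z b = ∫ u : Fin n → ℂ, ker ε u * av v (z - u) b := by
    simp only [e] at h2
    exact h2
  rw [h3]
  simp only [e] at h1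
  apply integral_mono (hv.int_conv hε z) h1
  intro u
  rcases lt_or_ge ‖u‖ ε with hu | hu
  · apply mul_le_mul_of_nonneg_left _ (ker_nonneg hε u)
    apply hv.sub
    have := norm_sub_le z u
    linarith
  · simp [ker_zero_of_le hε hu]

lemma mol_rot {ε : ℝ} (θ : ℝ) (z : Fin n → ℂ) :
    ∫ u : Fin n → ℂ, ker ε u * v (z + Complex.exp (θ * Complex.I) • (-u)) = mol v ε z := by
  set a : Circle := Circle.exp θ with ha
  have hne : Complex.exp (θ * Complex.I) ≠ 0 := Complex.exp_ne_zero _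
  have hmp : MeasurePreserving (fun (u : Fin n → ℂ) (i : Fin n) => (rotation a) (u i))
      volume volume := volume_preserving_pi (fun _ => (rotation a).measurePreserving)
  have hfun : (fun (u : Fin n → ℂ) (i : Fin n) => (rotation a) (u i))
      = fun u : Fin n → ℂ => Complex.exp (θ * Complex.I) • u := by
    ext u i
    simp [rotation_apply, ha]
  rw [hfun] at hmp
  have h := hmp.integral_comp (Homeomorph.smulOfNeZero _ hne).measurableEmbedding
    (fun u : Fin n → ℂ => ker ε u * v (z - u))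
  unfold mol
  rw [← h]
  congr 1
  ext u
  rw [ker_rot ε (by simp) u, smul_neg, ← sub_eq_add_neg]

lemma Dat.le_mol (hv : Dat v M) {ε : ℝ} (hε : 0 < ε) {z : Fin n → ℂ} (h : ‖z‖ + ε < 1) :
    v z ≤ mol v ε z := by
  have hg : Measurable fun p : ℝ × (Fin n → ℂ) =>
      v (z + Complex.exp (p.1 * Complex.I) • (-p.2)) := by
    apply hv.meas.comp
    exact (by fun_prop : Continuous fun p : ℝ × (Fin n → ℂ) =>
      z + Complex.exp (p.1 * Complex.I) • (-p.2)).measurable
  obtain ⟨h1, h2⟩ := fub hε (g := fun θ u => v (z + Complex.exp (θ * Complex.I) • (-u))) hg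
    (fun θ u => hv.abs_le _)
  simp only [mol_rot] at h2
  rw [intervalIntegral.integral_const] at h2
  have h3 : mol v ε z = ∫ u : Fin n → ℂ, ker ε u * av v z (-u) := by
    have h4 : ∫ u : Fin n → ℂ, ker ε u * av v z (-u) = (2 * Real.pi)⁻¹ • (2 * Real.pi - 0) • mol v ε z :=
      h2.symm
    rw [h4, smul_smul, sub_zero, inv_mul_cancel₀ (by positivity), one_smul]
  rw [h3]
  have h4 : v z = ∫ u : Fin n → ℂ, ker ε u * v z := by
    rw [integral_mul_const, ker_int hε, one_mul]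
  conv_lhs => rw [h4]
  apply integral_mono ((ker_integrable hε).mul_const _) h1
  intro u
  rcases lt_or_ge ‖u‖ ε with hu | hu
  · apply mul_le_mul_of_nonneg_left _ (ker_nonneg hε u)
    apply hv.sub
    rw [norm_neg]
    linarith
  · simp [ker_zero_of_le hε hu]

lemma Dat.tendsto (hv : Dat v M) {z : Fin n → ℂ} (hz : ‖z‖ < 1) {e : ℕ → ℝ} (he : ∀ k, 0 < e k)
    (he0 : Tendsto e atTop (𝓝 0)) : Tendsto (fun k => mol v (e k) z) atTop (𝓝 (v z)) := by
  rw [tendsto_order]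
  constructor
  · intro a ha
    have : ∀ᶠ k in atTop, e k < 1 - ‖z‖ := he0.eventually (gt_mem_nhds (by linarith))
    filter_upwards [this] with k hk
    exact ha.trans_le (hv.le_mol (he k) (by linarith))
  · intro a ha
    obtain ⟨b, hb1, hb2⟩ := exists_between ha
    have hu := hv.usc z (by simpa using hz) b hb1
    obtain ⟨δ, hδ, hδ'⟩ := Metric.eventually_nhds_iff_ball.1 hu
    have : ∀ᶠ k in atTop, e k < δ := he0.eventually (gt_mem_nhds hδ)
    filter_upwards [this] with k hk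
    refine (hv.mol_le_of (he k) z fun u hu => (hδ' _ ?_).le).trans_lt hb2
    rw [mem_ball, dist_eq_norm]
    simpa using hu.trans hk

end Vale.Agent.P284.H10.TAN
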