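import Vale.Agent.P284.H10.TAN.En

/-!
# P284, theorem TAN, row R1: smooth approximation with bounded energy in dimension `n` (helper10)
-/

open Filter Set Metric MeasureTheory Topology
open scoped ContDiff

noncomputable section

namespace Vale.Agent.P284.H10.TAN

variable {n : ℕ} {w : (Fin n → ℂ) → ℝ}

/-- `w + B` on the unit ball, zero outside -/
def ext (w : (Fin n → ℂ) → ℝ) (B : ℝ) : (Fin n → ℂ) → ℝ :=
  (ball (0 : Fin n → ℂ) 1).indicator fun z => w z + B

lemma ext_eq {B : ℝ} {z : Fin n → ℂ} (hz : z ∈ ball (0 : Fin n → ℂ) 1) : ext w B z = w z + B :=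
  indicator_of_mem hz _

lemma ext_nn {B : ℝ} (hB : ∀ z ∈ ball (0 : Fin n → ℂ) 1, |w z| ≤ B) (z : Fin n → ℂ) :
    0 ≤ ext w B z := by
  apply indicator_nonneg
  intro z hz
  have := abs_le.1 (hB z hz)
  linarith [this.1]

lemma ext_le {B : ℝ} (hB : ∀ z ∈ ball (0 : Fin n → ℂ) 1, |w z| ≤ B) (z : Fin n → ℂ) :
    ext w B z ≤ 2 * B := by
  by_cases hz : z ∈ ball (0 : Fin n → ℂ) 1
  · have := abs_le.1 (hB z hz)
    rw [ext_eq hz]; linarith [this.2]
  · have := abs_le.1 (hB 0 (mem_ball_self one_pos))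
    rw [ext, indicator_of_notMem hz]; linarith [this.1, this.2]

lemma ext_usc (hw : ∀ z ∈ ball (0 : Fin n → ℂ) 1, UpperSemicontinuousAt w z) (B : ℝ) :
    ∀ z ∈ ball (0 : Fin n → ℂ) 1, UpperSemicontinuousAt (ext w B) z := by
  intro z hz a ha
  rw [ext_eq hz] at ha
  have h1 := hw z hz (a - B) (by linarith)
  filter_upwards [h1, isOpen_ball.mem_nhds hz] with y hy hy'
  rw [ext_eq hy']; linarith

lemma ext_meas (hw : ∀ z ∈ ball (0 : Fin n → ℂ) 1, UpperSemicontinuousAt w z) {B : ℝ}
    (hB : ∀ z ∈ ball (0 : Fin n → ℂ) 1, |w z| ≤ B) : Measurable (ext w B) := by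
  apply measurable_of_Iio
  intro a
  by_cases ha : a ≤ 0
  · have : ext w B ⁻¹' Iio a = ∅ := by
      rw [eq_empty_iff_forall_notMem]
      intro z hz
      have := ext_nn hB z
      have hz' : ext w B z < a := hz
      linarith
    rw [this]; exact MeasurableSet.empty
  · rw [not_le] at ha
    have e : ext w B ⁻¹' Iio a
        = (ball (0 : Fin n → ℂ) 1 ∩ ext w B ⁻¹' Iio a) ∪ (ball (0 : Fin n → ℂ) 1)ᶜ := by
      ext z
      simp only [mem_union, mem_inter_iff, mem_preimage, mem_Iio, mem_compl_iff]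
      constructor
      · intro h
        by_cases hz : z ∈ ball (0 : Fin n → ℂ) 1
        · exact Or.inl ⟨hz, h⟩
        · exact Or.inr hz
      · rintro (h | h)
        · exact h.2
        · rw [ext, indicator_of_notMem h]; exact ha
    rw [e]
    apply MeasurableSet.union _ measurableSet_ball.compl
    apply IsOpen.measurableSet
    rw [isOpen_iff_mem_nhds]
    rintro z ⟨hz, hz'⟩
    exact inter_mem (isOpen_ball.mem_nhds hz) (ext_usc hw B z hz a hz')

lemma ext_int (hw : ∀ z ∈ ball (0 : Fin n → ℂ) 1, UpperSemicontinuousAt w z) {B : ℝ}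
    (hB : ∀ z ∈ ball (0 : Fin n → ℂ) 1, |w z| ≤ B) (c b : Fin n → ℂ) :
    IntervalIntegrable (fun θ : ℝ => ext w B (c + Complex.exp (θ * Complex.I) • b)) volume 0
      (2 * Real.pi) := by
  apply (intervalIntegrable_const (c := 2 * B)).mono_fun
  · apply Measurable.aestronglyMeasurable
    apply (ext_meas hw hB).comp
    exact (by fun_prop : Continuous fun θ : ℝ =>
      c + Complex.exp (θ * Complex.I) • b).measurable
  · apply ae_of_all
    intro θ
    simp only [Real.norm_eq_abs]
    rw [abs_of_nonneg (ext_nn hB _)]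
    exact (ext_le hB _).trans (le_abs_self _)

/-- **R1.** -/
theorem r1 (n : ℕ) (w : (Fin n → ℂ) → ℝ) (hb : ∃ B : ℝ, ∀ z ∈ ball (0 : Fin n → ℂ) 1, |w z| ≤ B)
    (usc : ∀ z ∈ ball (0 : Fin n → ℂ) 1, UpperSemicontinuousAt w z)
    (sub : ∀ c b : Fin n → ℂ, ‖c‖ + ‖b‖ < 1 →
      w c ≤ Real.circleAverage (fun ζ => w (c + ζ • b)) 0 1) :
    ∀ r : ℝ, 0 < r → r < 1 → ∃ (f : ℕ → (Fin n → ℂ) → ℝ) (K : ℝ),
      (∀ k, ContDiff ℝ 1 (f k)) ∧
      (∀ z ∈ ball (0 : Fin n → ℂ) r, Tendsto (fun k => f k z) atTop (𝓝 (w z))) ∧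
      ∀ k, ∫ z in ball (0 : Fin n → ℂ) r, ‖fderiv ℝ (f k) z‖ ^ 2 ≤ K := by
  intro r hr hr1
  obtain ⟨B, hB⟩ := hb
  have hD : Dat (ext w B) (2 * B) := by
    refine ⟨ext_meas usc hB, ext_nn hB, ext_le hB, ?_, ?_, ext_usc usc B⟩
    · intro z hz
      apply indicator_of_notMem
      simpa using hz
    · intro c b h
      have hin : ∀ θ : ℝ, c + Complex.exp (θ * Complex.I) • b ∈ ball (0 : Fin n → ℂ) 1 := by
        intro θ
        rw [mem_ball, dist_zero_right]
        refine (norm_add_le _ _).trans_lt ?_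
        rw [norm_smul, Complex.norm_exp_ofReal_mul_I, one_mul]
        exact h
      have hc : c ∈ ball (0 : Fin n → ℂ) 1 := by
        rw [mem_ball, dist_zero_right]
        have := norm_nonneg b
        linarith
      have h1 := sub c b h
      rw [Real.circleAverage_def] at h1
      have e : ∀ θ : ℝ, w (c + circleMap 0 1 θ • b)
          = ext w B (c + Complex.exp (θ * Complex.I) • b) - B := by
        intro θ
        rw [ext_eq (hin θ)]
        simp [circleMap]
      simp only [e] at h1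
      rw [intervalIntegral.integral_sub (ext_int usc hB c b) intervalIntegrable_const,
        intervalIntegral.integral_const, smul_sub, smul_smul, sub_zero,
        inv_mul_cancel₀ (by positivity), one_smul] at h1
      rw [ext_eq hc]
      unfold av
      linarith
  obtain ⟨K, -, hK⟩ := energy (n := n) hr hr1
  set c : ℝ := (1 - r) / 4 with hc
  have hc0 : 0 < c := by rw [hc]; linarith
  set e : ℕ → ℝ := fun k => c / (k + 1) with he
  have he0 : ∀ k, 0 < e k := fun k => by simp only [he]; positivity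
  have hec : ∀ k, e k ≤ c := fun k => by
    simp only [he]
    apply div_le_self hc0.le
    have : (0 : ℝ) ≤ k := Nat.cast_nonneg k
    linarith
  have hlim : Tendsto e atTop (𝓝 0) := by
    have h0 := (tendsto_one_div_add_atTop_nhds_zero_nat (𝕜 := ℝ)).const_mul c
    rw [mul_zero] at h0
    refine h0.congr fun k => ?_
    simp only [he]; ring
  refine ⟨fun k z => mol (ext w B) (e k) z - B, K * (2 * B) ^ 2, ?_, ?_, ?_⟩
  · intro k
    exact ((hD.contDiff (he0 k)).of_le (by simp)).sub contDiff_const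
  · intro z hz
    rw [mem_ball, dist_zero_right] at hz
    have h1 := hD.tendsto (z := z) (hz.trans hr1) he0 hlim
    rw [ext_eq (by simpa using hz.trans hr1)] at h1
    have h2 := h1.sub_const B
    simpa using h2
  · intro k
    have h1 := hK (mol (ext w B) (e k)) (2 * B) ((hD.contDiff (he0 k)).of_le (by simp))
      ⟨1 + e k, fun z hz => hD.mol_zero (he0 k) hz⟩
      (fun z => ⟨hD.mol_nonneg (he0 k) z, hD.mol_le (he0 k) z⟩)
      (fun z b h => hD.mol_sub (he0 k) (by
        have := hec k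
        linarith))
    have h2 : ∀ z, fderiv ℝ (fun z => mol (ext w B) (e k) z - B) z
        = fderiv ℝ (mol (ext w B) (e k)) z := fun z => fderiv_sub_const B
    simp only [h2]
    exact h1

end Vale.Agent.P284.H10.TAN
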