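import Vale.Agent.P284.H10.TAN.En

/-!
# P284, theorem TAN, row R2: strong limits of gradients by convex combinations (helper10)
-/

open Filter Set Metric MeasureTheory Topology
open scoped ContDiff

noncomputable section

namespace Vale.Agent.P284.H10.TAN

variable {n : ℕ}

/-- Euclidean form on covectors -/
def q (L : (Fin n → ℂ) →L[ℝ] ℝ) : ℝ := ∑ j : Fin n, ((L (io j 1)) ^ 2 + (L (io j Complex.I)) ^ 2)

lemma q_nonneg (L : (Fin n → ℂ) →L[ℝ] ℝ) : 0 ≤ q L :=
  Finset.sum_nonneg fun _ _ => by positivity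

lemma q_par (L L' : (Fin n → ℂ) →L[ℝ] ℝ) : q (L + L') + q (L - L') = 2 * q L + 2 * q L' := by
  unfold q
  simp only [ContinuousLinearMap.add_apply, ContinuousLinearMap.sub_apply,
    ← Finset.sum_add_distrib, Finset.mul_sum]
  apply Finset.sum_congr rfl
  intro j _
  ring

lemma q_smul (c : ℝ) (L : (Fin n → ℂ) →L[ℝ] ℝ) : q (c • L) = c ^ 2 * q L := by
  unfold q
  simp only [ContinuousLinearMap.smul_apply, Finset.mul_sum, smul_eq_mul]
  apply Finset.sum_congr rfl
  intro j _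
  ring

lemma q_cont : Continuous (q : ((Fin n → ℂ) →L[ℝ] ℝ) → ℝ) := by
  unfold q
  apply continuous_finset_sum
  intro j _
  have h1 : ∀ x : Fin n → ℂ, Continuous fun L : (Fin n → ℂ) →L[ℝ] ℝ => L x := fun x =>
    (ContinuousLinearMap.apply ℝ ℝ x).continuous
  exact ((h1 _).pow 2).add ((h1 _).pow 2)

lemma q_le (L : (Fin n → ℂ) →L[ℝ] ℝ) : q L ≤ 2 * n * ‖L‖ ^ 2 := by
  have h1 : ∀ (j : Fin n) (ζ : ℂ), ‖ζ‖ = 1 → (L (io j ζ)) ^ 2 ≤ ‖L‖ ^ 2 := by
    intro j ζ hζ
    have h2 := L.le_opNorm (io j ζ)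
    rw [io_norm, hζ, mul_one, Real.norm_eq_abs] at h2
    rw [← sq_abs]
    gcongr
  have h2 : q L ≤ ∑ _j : Fin n, (‖L‖ ^ 2 + ‖L‖ ^ 2) :=
    Finset.sum_le_sum fun j _ => add_le_add (h1 j 1 (by simp)) (h1 j Complex.I (by simp))
  rw [Finset.sum_const, Finset.card_univ, Fintype.card_fin, nsmul_eq_mul] at h2
  linarith

lemma norm_sq_le_q (L : (Fin n → ℂ) →L[ℝ] ℝ) : ‖L‖ ^ 2 ≤ n * q L := by
  refine (norm_sq_le L).trans ?_
  apply mul_le_mul_of_nonneg_left _ (Nat.cast_nonneg n)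
  apply Finset.sum_le_sum
  intro j _
  have h0 : 0 ≤ (L (io j 1)) ^ 2 + (L (io j Complex.I)) ^ 2 := by positivity
  have h1 : ‖L.comp (io j)‖ ≤ Real.sqrt ((L (io j 1)) ^ 2 + (L (io j Complex.I)) ^ 2) := by
    apply ContinuousLinearMap.opNorm_le_bound _ (Real.sqrt_nonneg _)
    intro ζ
    have h2 : io j ζ = ζ.re • io j 1 + ζ.im • io j Complex.I := by
      rw [← map_smul, ← map_smul, ← map_add]
      congr 1
      apply Complex.ext <;> simp
    rw [ContinuousLinearMap.comp_apply, h2, map_add, map_smul, map_smul, smul_eq_mul, smul_eq_mul,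
      Real.norm_eq_abs]
    refine abs_le_of_sq_le_sq ?_ (by positivity)
    rw [mul_pow, Real.sq_sqrt h0, ← Complex.normSq_eq_norm_sq, Complex.normSq_apply]
    nlinarith [sq_nonneg (ζ.re * L (io j Complex.I) - ζ.im * L (io j 1))]
  calc ‖L.comp (io j)‖ ^ 2 ≤ (Real.sqrt ((L (io j 1)) ^ 2 + (L (io j Complex.I)) ^ 2)) ^ 2 := by
        gcongr
    _ = _ := Real.sq_sqrt h0

variable {S : Set (Fin n → ℂ)}

lemma intOn {F : Type*} [NormedAddCommGroup F] (hS : Bornology.IsBounded S)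
    {φ : (Fin n → ℂ) → F} (hφ : Continuous φ) : IntegrableOn φ S := by
  obtain ⟨R, hR⟩ := hS.subset_closedBall 0
  exact (hφ.continuousOn.integrableOn_compact (isCompact_closedBall _ R)).mono_set hR

theorem r2 (n : ℕ) (u : (Fin n → ℂ) → ℝ) (S : Set (Fin n → ℂ))
    (hS : Bornology.IsBounded S) (f : ℕ → (Fin n → ℂ) → ℝ) (K : ℝ)
    (hf : ∀ k, ContDiff ℝ 1 (f k)) (hlim : ∀ z ∈ S, Tendsto (fun k => f k z) atTop (𝓝 (u z)))
    (hK : ∀ k, ∫ z in S, ‖fderiv ℝ (f k) z‖ ^ 2 ≤ K) :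
    ∃ (g : ℕ → (Fin n → ℂ) → ℝ) (G : (Fin n → ℂ) → (Fin n → ℂ) →L[ℝ] ℝ),
      (∀ k, ContDiff ℝ 1 (g k)) ∧ (∀ z ∈ S, Tendsto (fun k => g k z) atTop (𝓝 (u z))) ∧
      StronglyMeasurable G ∧ IntegrableOn G S ∧
      Tendsto (fun k => ∫⁻ z in S, ‖fderiv ℝ (g k) z - G z‖ₑ) atTop (𝓝 0) := by
  set C : ℕ → Set ((Fin n → ℂ) → ℝ) := fun k => convexHull ℝ (f '' Ici k) with hC
  have hfC : ∀ k, f k ∈ C k := fun k => subset_convexHull ℝ _ ⟨k, mem_Ici.2 le_rfl, rfl⟩
  have hCd : ∀ k, ∀ h ∈ C k, ContDiff ℝ 1 h := by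
    intro k
    apply convexHull_min (t := {h | ContDiff ℝ 1 h})
    · rintro _ ⟨j, -, rfl⟩
      exact hf j
    · intro h₁ h1 h₂ h2 a b _ _ _
      have h1' : ContDiff ℝ 1 h₁ := h1
      have h2' : ContDiff ℝ 1 h₂ := h2
      exact (contDiff_const.smul h1').add (contDiff_const.smul h2')
  have hanti : ∀ k l, k ≤ l → C l ⊆ C k := fun k l hkl =>
    convexHull_mono (image_mono (Ici_subset_Ici.2 hkl))
  have hCe : ∀ (z : Fin n → ℂ) (ε : ℝ) (k : ℕ), (∀ j, k ≤ j → |f j z - u z| ≤ ε) →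
      ∀ h ∈ C k, |h z - u z| ≤ ε := by
    intro z ε k hk h hh
    refine convexHull_min (t := {h : (Fin n → ℂ) → ℝ | |h z - u z| ≤ ε}) ?_ ?_ hh
    · rintro _ ⟨j, hj, rfl⟩
      exact hk j hj
    · intro h₁ h1 h₂ h2 a b ha hb hab
      have h1' : |h₁ z - u z| ≤ ε := h1
      have h2' : |h₂ z - u z| ≤ ε := h2
      show |(a • h₁ + b • h₂) z - u z| ≤ ε
      have e : (a • h₁ + b • h₂) z - u z = a * (h₁ z - u z) + b * (h₂ z - u z) := by
        have : u z = (a + b) * u z := by rw [hab, one_mul]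
        simp only [Pi.add_apply, Pi.smul_apply, smul_eq_mul]
        linear_combination -this
      rw [e]
      calc |a * (h₁ z - u z) + b * (h₂ z - u z)| ≤ |a * (h₁ z - u z)| + |b * (h₂ z - u z)| :=
            abs_add_le _ _
        _ = a * |h₁ z - u z| + b * |h₂ z - u z| := by
            rw [abs_mul, abs_mul, abs_of_nonneg ha, abs_of_nonneg hb]
        _ ≤ a * ε + b * ε := by gcongr
        _ = ε := by rw [← add_mul, hab, one_mul]
  set Q : ((Fin n → ℂ) → ℝ) → ℝ := fun h => ∫ z in S, q (fderiv ℝ h z) with hQ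
  have hQ0 : ∀ h, 0 ≤ Q h := fun h => integral_nonneg fun z => q_nonneg _
  have hqi : ∀ {h : (Fin n → ℂ) → ℝ}, ContDiff ℝ 1 h →
      IntegrableOn (fun z => q (fderiv ℝ h z)) S := fun hh =>
    intOn hS (q_cont.comp (hh.continuous_fderiv (by simp)))
  set m : ℕ → ℝ := fun k => sInf (Q '' C k) with hm
  have hbdd : ∀ k, BddBelow (Q '' C k) := fun k => ⟨0, by rintro _ ⟨h, -, rfl⟩; exact hQ0 h⟩
  have hmle : ∀ k, ∀ h ∈ C k, m k ≤ Q h := fun k h hh => csInf_le (hbdd k) ⟨h, hh, rfl⟩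
  have hmono : Monotone m := fun k l hkl =>
    csInf_le_csInf (hbdd k) ⟨_, f l, hfC l, rfl⟩ (image_mono (hanti k l hkl))
  have hup : ∀ k, m k ≤ 2 * n * K := by
    intro k
    refine (hmle k _ (hfC k)).trans ?_
    have h1 : Q (f k) ≤ ∫ z in S, 2 * n * ‖fderiv ℝ (f k) z‖ ^ 2 := by
      apply integral_mono (hqi (hf k))
      · exact (intOn hS (((hf k).continuous_fderiv (by simp)).norm.pow 2)).const_mul _
      · intro z
        exact q_le _
    rw [integral_const_mul] at h1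
    refine h1.trans ?_
    apply mul_le_mul_of_nonneg_left (hK k) (by positivity)
  have hex : ∀ k : ℕ, ∃ h ∈ C k, Q h < m k + 1 / (k + 1) := by
    intro k
    have h1 : sInf (Q '' C k) < m k + 1 / (k + 1) := by
      have : (0 : ℝ) < 1 / (k + 1) := by positivity
      show m k < _
      linarith
    have hne : (Q '' C k).Nonempty := ⟨Q (f k), f k, hfC k, rfl⟩
    obtain ⟨_, ⟨h, hh, rfl⟩, h2⟩ := exists_lt_of_csInf_lt hne h1
    exact ⟨h, hh, h2⟩
  choose g hgC hgQ using hex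
  have hgd : ∀ k, ContDiff ℝ 1 (g k) := fun k => hCd k _ (hgC k)
  have hder : ∀ k l z, fderiv ℝ (fun z => g k z - g l z) z = fderiv ℝ (g k) z - fderiv ℝ (g l) z :=
    fun k l z => fderiv_sub ((hgd k).differentiable (by simp) z) ((hgd l).differentiable (by simp) z)
  set A : ℝ := ⨆ k, m k with hA
  have hbA : BddAbove (range m) := ⟨2 * n * K, by rintro _ ⟨k, rfl⟩; exact hup k⟩
  have hmA : ∀ k, m k ≤ A := fun k => le_ciSup hbA k
  have hlimA : Tendsto m atTop (𝓝 A) := tendsto_atTop_ciSup hmono hbA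
  set b : ℕ → ℝ := fun N => 4 * (A - m N) + 4 * (1 / (N + 1)) with hb
  have hb0 : ∀ N, 0 < b N := fun N => by
    have h1 : (0 : ℝ) < 1 / (N + 1) := by positivity
    have h2 := hmA N
    simp only [hb]; linarith
  have hblim : Tendsto b atTop (𝓝 0) := by
    have h1 : Tendsto (fun N => 4 * (A - m N) + 4 * (1 / ((N : ℝ) + 1))) atTop
        (𝓝 (4 * (A - A) + 4 * 0)) :=
      ((tendsto_const_nhds.sub hlimA).const_mul 4).add
        ((tendsto_one_div_add_atTop_nhds_zero_nat (𝕜 := ℝ)).const_mul 4)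
    have h2 : 4 * (A - A) + 4 * 0 = (0 : ℝ) := by ring
    rw [h2] at h1
    exact h1
  have key : ∀ N k l, N ≤ k → N ≤ l →
      ∫ z in S, q (fderiv ℝ (g k) z - fderiv ℝ (g l) z) ≤ b N := by
    intro N k l hk hl
    have hmid : (1 / 2 : ℝ) • g k + (1 / 2 : ℝ) • g l ∈ C N :=
      (convex_convexHull ℝ _) (hanti N k hk (hgC k)) (hanti N l hl (hgC l)) (by norm_num)
        (by norm_num) (by norm_num)
    have h1 := hmle N _ hmid
    have h2 : Q ((1 / 2 : ℝ) • g k + (1 / 2 : ℝ) • g l)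
        = ∫ z in S, (1 / 4) * q (fderiv ℝ (g k) z + fderiv ℝ (g l) z) := by
      simp only [hQ]
      congr 1
      ext z
      have h3 : fderiv ℝ ((1 / 2 : ℝ) • g k + (1 / 2 : ℝ) • g l) z
          = (1 / 2 : ℝ) • (fderiv ℝ (g k) z + fderiv ℝ (g l) z) := by
        have hk' := ((hgd k).differentiable (by simp) z).hasFDerivAt.const_smul (1 / 2 : ℝ)
        have hl' := ((hgd l).differentiable (by simp) z).hasFDerivAt.const_smul (1 / 2 : ℝ)
        rw [(hk'.add hl').fderiv, smul_add]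
      rw [h3, q_smul]
      norm_num
    rw [h2, integral_const_mul] at h1
    have hck := (hgd k).continuous_fderiv (by simp)
    have hcl := (hgd l).continuous_fderiv (by simp)
    have i1 : IntegrableOn (fun z => q (fderiv ℝ (g k) z + fderiv ℝ (g l) z)) S :=
      intOn hS (q_cont.comp (hck.add hcl))
    have i2 : IntegrableOn (fun z => q (fderiv ℝ (g k) z - fderiv ℝ (g l) z)) S :=
      intOn hS (q_cont.comp (hck.sub hcl))
    have h4 : (∫ z in S, q (fderiv ℝ (g k) z + fderiv ℝ (g l) z))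
        + (∫ z in S, q (fderiv ℝ (g k) z - fderiv ℝ (g l) z)) = 2 * Q (g k) + 2 * Q (g l) := by
      rw [← integral_add i1 i2]
      simp only [hQ, q_par]
      rw [integral_add ((hqi (hgd k)).const_mul 2) ((hqi (hgd l)).const_mul 2),
        integral_const_mul, integral_const_mul]
    have h5 := hgQ k
    have h6 := hgQ l
    have h7 : (1 : ℝ) / (k + 1) ≤ 1 / (N + 1) := by
      apply one_div_le_one_div_of_le (by positivity)
      have : (N : ℝ) ≤ k := by exact_mod_cast hk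
      linarith
    have h8 : (1 : ℝ) / (l + 1) ≤ 1 / (N + 1) := by
      apply one_div_le_one_div_of_le (by positivity)
      have : (N : ℝ) ≤ l := by exact_mod_cast hl
      linarith
    have h9 := hmA k
    have h10 := hmA l
    simp only [hb]
    linarith
  have hVt : volume S ≠ ⊤ := hS.measure_lt_top.ne
  have keyL : ∀ N k l, N ≤ k → N ≤ l →
      ∫ z in S, ‖fderiv ℝ (g k) z - fderiv ℝ (g l) z‖ ≤ Real.sqrt (b N) * (volume.real S + n) := by
    intro N k l hk hl
    have ht : 0 < Real.sqrt (b N) := Real.sqrt_pos.2 (hb0 N)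
    have hck := (hgd k).continuous_fderiv (by simp)
    have hcl := (hgd l).continuous_fderiv (by simp)
    have i2 : IntegrableOn (fun z => q (fderiv ℝ (g k) z - fderiv ℝ (g l) z)) S :=
      intOn hS (q_cont.comp (hck.sub hcl))
    have h1 : ∫ z in S, ‖fderiv ℝ (g k) z - fderiv ℝ (g l) z‖
        ≤ ∫ z in S, (Real.sqrt (b N)
          + (n / Real.sqrt (b N)) * q (fderiv ℝ (g k) z - fderiv ℝ (g l) z)) := by
      apply integral_mono (intOn hS (hck.sub hcl).norm)
        ((integrableOn_const hVt).add (i2.const_mul _))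
      intro z
      set L := fderiv ℝ (g k) z - fderiv ℝ (g l) z with hL
      have h2 := norm_sq_le_q L
      show ‖L‖ ≤ Real.sqrt (b N) + (n / Real.sqrt (b N)) * q L
      have h3 : ‖L‖ * Real.sqrt (b N) ≤ Real.sqrt (b N) * Real.sqrt (b N) + n * q L := by
        nlinarith [sq_nonneg (‖L‖ - Real.sqrt (b N)), norm_nonneg L, sq_nonneg (‖L‖),
          sq_nonneg (Real.sqrt (b N))]
      have h4 : Real.sqrt (b N) + (n / Real.sqrt (b N)) * q L
          = (Real.sqrt (b N) * Real.sqrt (b N) + n * q L) / Real.sqrt (b N) := by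
        field_simp
      rw [h4, le_div_iff₀ ht]
      exact h3
    have h5 : ∫ z in S, (Real.sqrt (b N)
          + (n / Real.sqrt (b N)) * q (fderiv ℝ (g k) z - fderiv ℝ (g l) z))
        = volume.real S * Real.sqrt (b N) + (n / Real.sqrt (b N))
          * ∫ z in S, q (fderiv ℝ (g k) z - fderiv ℝ (g l) z) := by
      have i3 : IntegrableOn (fun _ : Fin n → ℂ => Real.sqrt (b N)) S := integrableOn_const hVt
      rw [integral_add i3 (i2.const_mul _), setIntegral_const,
        integral_const_mul, smul_eq_mul]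
    have h6 : (n / Real.sqrt (b N)) * ∫ z in S, q (fderiv ℝ (g k) z - fderiv ℝ (g l) z)
        ≤ (n / Real.sqrt (b N)) * b N :=
      mul_le_mul_of_nonneg_left (key N k l hk hl) (by positivity)
    have h7 : (n / Real.sqrt (b N)) * b N = n * Real.sqrt (b N) := by
      have := Real.mul_self_sqrt (hb0 N).le
      field_simp
      rw [sq, this]
    rw [h5] at h1
    rw [h7] at h6
    linarith
  have hgi : ∀ k, Integrable (fun z => fderiv ℝ (g k) z) (volume.restrict S) := fun k =>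
    intOn hS ((hgd k).continuous_fderiv (by simp))
  set F : ℕ → ((Fin n → ℂ) →₁[volume.restrict S] ((Fin n → ℂ) →L[ℝ] ℝ)) :=
    fun k => (hgi k).toL1 _ with hF
  have hcau : CauchySeq F := by
    apply cauchySeq_of_le_tendsto_0 (fun N => Real.sqrt (b N) * (volume.real S + n))
    · intro k l N hk hl
      rw [dist_eq_norm]
      simp only [hF]
      rw [← Integrable.toL1_sub, L1.norm_of_fun_eq_integral_norm]
      exact keyL N k l hk hl
    · have h1 : Tendsto (fun N => Real.sqrt (b N) * (volume.real S + n)) atTop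
          (𝓝 (Real.sqrt 0 * (volume.real S + n))) :=
        ((Real.continuous_sqrt.tendsto 0).comp hblim).mul_const _
      simpa using h1
  obtain ⟨G, hG⟩ := cauchySeq_tendsto_of_complete hcau
  refine ⟨g, G, hgd, ?_, Lp.stronglyMeasurable G, L1.integrable_coeFn G, ?_⟩
  · intro z hz
    rw [Metric.tendsto_atTop]
    intro ε hε
    obtain ⟨k, hk⟩ := Metric.tendsto_atTop.1 (hlim z hz) (ε / 2) (by linarith)
    refine ⟨k, fun l hl => ?_⟩
    rw [Real.dist_eq]
    refine lt_of_le_of_lt (hCe z (ε / 2) k (fun j hj => ?_) _ (hanti k l hl (hgC l))) (by linarith)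
    have := hk j hj
    rw [Real.dist_eq] at this
    exact this.le
  · have h1 := tendsto_iff_edist_tendsto_0.1 hG
    refine h1.congr fun k => ?_
    rw [L1.edist_def]
    apply lintegral_congr_ae
    filter_upwards [(hgi k).coeFn_toL1] with z hz
    rw [hF]
    simp only
    rw [hz, edist_eq_enorm_sub]

end Vale.Agent.P284.H10.TAN
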